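import Vale.Agent.P007.RealField

open MeasureTheory Filter
open Vale.Agent.P007

namespace Vale.Agent.Results.P007.CompositeDegree

/-- (1) For every composite degree there is a sequence of triples with discriminants tending to
infinity all of whose packet measures annihilate a fixed test function which every
`SL_n(ℝ)`-invariant probability measure charges.
(2) The general obstruction: a common nonscalar multiplier of infinitely many of the orders. -/
theorem result :
    (∀ n : ℕ, 4 ≤ n → ¬ n.Prime → ∃ (D : ℕ → Triple n) (f : X n → ℝ),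
      Tendsto (fun i => (D i).disc) atTop atTop ∧
      (∀ i, ∃ μ, (D i).Packets μ) ∧
      (∀ i μ, (D i).Packets μ → IsProbabilityMeasure μ ∧ ∫ x, f x ∂μ = 0) ∧
      Continuous f ∧ HasCompactSupport f ∧
      ∀ m, IsInvariantProbability m → 0 < ∫ x, f x ∂m) ∧
    (∀ (n : ℕ) (D : ℕ → Triple n) (d : Fin n → ℝ) (j k : Fin n), d j ≠ d k →
      (∃ᶠ i in atTop, d ∈ (D i).image) →
      ∃ f : X n → ℝ, Continuous f ∧ HasCompactSupport f ∧
        ∀ (μ : ℕ → Measure (X n)) m, (∀ i, (D i).Packets (μ i)) →
          IsInvariantProbability m →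
          ¬ Tendsto (fun i => ∫ x, f x ∂(μ i)) atTop (nhds (∫ x, f x ∂m))) := by
  constructor
  · intro n h4 hn
    obtain ⟨K, _, _, σ, a, hfin, ha, hadj, j, k, hjk⟩ := exists_field n (by omega) hn
    obtain ⟨f, hf, hfc, hf0, hfz, x₀, hx₀⟩ := exists_test (d := fun l => σ l a) hjk
    let D : ℕ → Triple n := fun i =>
      { K := K, degree := hfin, σ := σ, O := ordSeq a ha i
        isOrder := isOrder_ordSeq a ha i }
    refine ⟨D, f, tendsto_absDisc a ha hadj,
      fun i => exists_packetMeasure σ hfin (isOrder_ordSeq a ha i),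
      fun i μ hμ => ⟨isProbabilityMeasure_packetMeasure σ hfin (isOrder_ordSeq a ha i) hμ, ?_⟩,
      hf, hfc, fun m hm => integral_pos_of_invariant hf hfc hf0 hx₀ hm⟩
    exact integral_packetMeasure_eq_zero hμ (self_mem_ordSeq a ha i) hfz
  · intro n D d j k hjk hfreq
    obtain ⟨f, hf, hfc, hf0, hfz, x₀, hx₀⟩ := exists_test (d := d) hjk
    refine ⟨f, hf, hfc, fun μ m hμ hm ht => ?_⟩
    have hpos := integral_pos_of_invariant hf hfc hf0 hx₀ hm
    have hev : ∀ᶠ i in atTop, 0 < ∫ x, f x ∂(μ i) := ht.eventually (lt_mem_nhds hpos)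
    obtain ⟨i, ⟨α, hα, hαd⟩, hi⟩ := (hfreq.and_eventually hev).exists
    have hd : (fun l => (D i).σ l α) = d := by
      rw [hαd]
      funext l
      simp
    have hz := integral_packetMeasure_eq_zero (hμ i) hα (f := f)
      (by rw [hd]; exact hfz)
    exact absurd hz hi.ne'

end Vale.Agent.Results.P007.CompositeDegree
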